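import Vale.Agent.P166.Parisi.Final

/-!
The limiting pressure of orthogonally invariant Ising spin glasses at every temperature.
-/

open MeasureTheory Filter Topology
open Vale.Agent.P166 Vale.Agent.P166.Parisi
open Vale.Agent.P157.Parisi (IsPath isingEntropy isingField)

namespace Vale.Agent.Results.P166.ParisiFormula

/-- For every compactly supported spectral law and every inverse temperature the pressure converges,
in mean and in probability, to the infimum of the variational formula; the suprema and the infimum in
the formula are genuine. -/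
theorem result :
    ∀ μ : Measure ℝ, IsProbabilityMeasure μ → IsCompact μ.support →
      (∃ Λ, Admissible μ Λ) ∧
      (∀ (K : ℕ) (q : ℕ → ℝ), IsPath q → q K < 1 →
        BddAbove (Set.range fun h : {h : ℕ → ℝ // IsPath h} =>
          isingField K h.1 + (∑ l ∈ Finset.range (K + 1), h.1 l * q l) / (2 * ((K : ℝ) + 1)))) ∧
      ∀ β : ℝ, 0 ≤ β →
        IsGLB {v | ∃ K q, IsPath q ∧ q K < 1 ∧
            v = isingEntropy K q + Parisi.energy μ β K q} (value μ β) ∧
          ∀ Λ : (N : ℕ) → Fin N → ℝ, Admissible μ Λ →
            Tendsto (fun N => ∫ U, pressure β (Λ N) U ∂haarON N) atTop (𝓝 (value μ β)) ∧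
              ∀ ε : ℝ, 0 < ε →
                Tendsto (fun N => haarON N {U | ε ≤ |pressure β (Λ N) U - value μ β|})
                  atTop (𝓝 0) := by
  intro μ hμ hc
  obtain ⟨hex, hlim⟩ := parisi_formula μ hc
  exact ⟨hex, fun K q hq h1 => isingEntropy_bddAbove hq h1, fun β hβ =>
    ⟨isGLB_csInf (candidates_nonempty μ β) (candidates_bddBelow hc hβ), fun Λ hΛ => ⟨(hlim β hβ Λ hΛ).1, fun ε hε => (hlim β hβ Λ hΛ).2 ε hε⟩⟩⟩

end Vale.Agent.Results.P166.ParisiFormula
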